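import Vale.Agent.P277.Defs
import Mathlib.Analysis.Analytic.Constructions
import Mathlib.Analysis.Calculus.ContDiff.Basic
import Mathlib.Topology.Metrizable.Urysohn

/-!
# P277, package A: holomorphic functions on compact complex spaces
-/

open scoped Manifold ContDiff Topology
open Vale.Agent.P272.K Vale.Agent.P285.H281.FD Set Filter

noncomputable section

namespace Vale.Agent.P277

variable {X Z : CSp}

/-! ### models -/

theorem IsModel.continuousOn {T : Type} [TopologicalSpace T] {Hol : (T → ℂ) → T → Prop} {V : Set T}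
    {N k : ℕ} {Ω : Set (Cm N)} {h : Fin k → Cm N → ℂ} {φ : T → Cm N} (hM : IsModel Hol V Ω h φ) :
    ContinuousOn φ V :=
  continuousOn_iff_continuous_domRestrict.2 hM.emb.continuous

theorem IsModel.continuousAt {T : Type} [TopologicalSpace T] {Hol : (T → ℂ) → T → Prop} {V : Set T}
    {N k : ℕ} {Ω : Set (Cm N)} {h : Fin k → Cm N → ℂ} {φ : T → Cm N} (hM : IsModel Hol V Ω h φ)
    {x : T} (hx : x ∈ V) : ContinuousAt φ x :=
  hM.continuousOn.continuousAt (hM.isOpen.mem_nhds hx)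

theorem IsModel.injOn {T : Type} [TopologicalSpace T] {Hol : (T → ℂ) → T → Prop} {V : Set T}
    {N k : ℕ} {Ω : Set (Cm N)} {h : Fin k → Cm N → ℂ} {φ : T → Cm N} (hM : IsModel Hol V Ω h φ) :
    InjOn φ V :=
  injOn_iff_injective.2 hM.emb.injective

/-- Local coordinates: functions `u` without redundancy information. -/
structure IsCoord (X : CSp) (V : Set X.pt) {N : ℕ} (u : Fin N → X.pt → ℂ) : Prop where
  isOpen : IsOpen V
  hol : ∀ a, ∀ x ∈ V, X.Hol (u a) x
  cont : ContinuousOn (fun y a => u a y) V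
  emb : Topology.IsEmbedding (V.domRestrict fun y a => u a y)
  iff : ∀ x ∈ V, ∀ f : X.pt → ℂ, X.Hol f x ↔
    ∃ g : Cm N → ℂ, AnalyticAt ℂ g (fun a => u a x) ∧ f =ᶠ[𝓝 x] fun y => g fun a => u a y

theorem IsModel.isCoord {V : Set X.pt} {N k : ℕ} {Ω : Set (Cm N)} {h : Fin k → Cm N → ℂ}
    {φ : X.pt → Cm N} (hM : IsModel X.Hol V Ω h φ) : IsCoord X V (fun a y => φ y a) where
  isOpen := hM.isOpen
  hol a x hx := (hM.hol x hx _).2 ⟨fun z => z a,
    (ContinuousLinearMap.proj (R := ℂ) (φ := fun _ : Fin N => ℂ) a).analyticAt _,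
    Eventually.of_forall fun _ => rfl⟩
  cont := hM.continuousOn
  emb := hM.emb
  iff x hx f := hM.hol x hx f

theorem exists_isCoord (X : CSp) (x : X.pt) :
    ∃ (N : ℕ) (V : Set X.pt) (u : Fin N → X.pt → ℂ), x ∈ V ∧ IsCoord X V u := by
  obtain ⟨N, k, V, Ω, h, φ, hx, hM⟩ := X.model x
  exact ⟨N, V, _, hx, hM.isCoord⟩

theorem IsCoord.continuousAt {V : Set X.pt} {N : ℕ} {u : Fin N → X.pt → ℂ} (hu : IsCoord X V u)
    {x : X.pt} (hx : x ∈ V) : ContinuousAt (fun y a => u a y) x :=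
  hu.cont.continuousAt (hu.isOpen.mem_nhds hx)

theorem IsCoord.injOn {V : Set X.pt} {N : ℕ} {u : Fin N → X.pt → ℂ} (hu : IsCoord X V u) :
    InjOn (fun y a => u a y) V :=
  injOn_iff_injective.2 hu.emb.injective

theorem IsCoord.mono {V W : Set X.pt} {N : ℕ} {u : Fin N → X.pt → ℂ} (hu : IsCoord X V u)
    (hW : IsOpen W) (hWV : W ⊆ V) : IsCoord X W u where
  isOpen := hW
  hol a x hx := hu.hol a x (hWV hx)
  cont := hu.cont.mono hWV
  emb := by
    have h : W.domRestrict (fun y a => u a y) = V.domRestrict (fun y a => u a y) ∘ inclusion hWV := rfl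
    rw [h]
    exact hu.emb.comp (Topology.IsEmbedding.inclusion hWV)
  iff x hx := hu.iff x (hWV hx)

/-! ### holomorphic germs -/

theorem hol_congr {f g : X.pt → ℂ} {x : X.pt} (hf : X.Hol f x) (h : g =ᶠ[𝓝 x] f) : X.Hol g x := by
  obtain ⟨N, V, u, hx, hu⟩ := exists_isCoord X x
  obtain ⟨G, hG, h'⟩ := (hu.iff x hx f).1 hf
  exact (hu.iff x hx g).2 ⟨G, hG, h.trans h'⟩

theorem hol_congr_iff {f g : X.pt → ℂ} {x : X.pt} (h : g =ᶠ[𝓝 x] f) : X.Hol f x ↔ X.Hol g x :=
  ⟨fun hf => hol_congr hf h, fun hf => hol_congr hf h.symm⟩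

theorem hol_eventually {f : X.pt → ℂ} {x : X.pt} (hf : X.Hol f x) : ∀ᶠ y in 𝓝 x, X.Hol f y := by
  obtain ⟨N, V, u, hx, hu⟩ := exists_isCoord X x
  obtain ⟨G, hG, h'⟩ := (hu.iff x hx f).1 hf
  filter_upwards [hu.isOpen.mem_nhds hx, (hu.continuousAt hx).eventually hG.eventually_analyticAt,
    h'.eventually_nhds] with y hy h1 h2
  exact (hu.iff y hy f).2 ⟨G, h1, h2⟩

theorem isOpen_hol (f : X.pt → ℂ) : IsOpen {x | X.Hol f x} :=
  isOpen_iff_eventually.2 fun _ hx => hol_eventually hx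

theorem hol_continuousAt {f : X.pt → ℂ} {x : X.pt} (hf : X.Hol f x) : ContinuousAt f x := by
  obtain ⟨N, V, u, hx, hu⟩ := exists_isCoord X x
  obtain ⟨G, hG, h'⟩ := (hu.iff x hx f).1 hf
  have h1 : ContinuousAt (fun y => G fun a => u a y) x :=
    ContinuousAt.comp (f := fun y a => u a y) (g := G) hG.continuousAt (hu.continuousAt hx)
  exact h1.congr h'.symm

/-- Composition with an analytic function of several variables. -/
theorem hol_comp {ι : Type} [Fintype ι] {f : ι → X.pt → ℂ} {G : (ι → ℂ) → ℂ} {x : X.pt}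
    (hf : ∀ i, X.Hol (f i) x) (hG : AnalyticAt ℂ G fun i => f i x) :
    X.Hol (fun y => G fun i => f i y) x := by
  obtain ⟨N, V, u, hx, hu⟩ := exists_isCoord X x
  choose g hg hg' using fun i => (hu.iff x hx (f i)).1 (hf i)
  refine (hu.iff x hx _).2 ⟨fun z => G fun i => g i z, ?_, ?_⟩
  · have h1 : AnalyticAt ℂ (fun z i => g i z) (fun a => u a x) := AnalyticAt.pi hg
    have h2 : (fun i => g i fun a => u a x) = fun i => f i x := by
      ext i
      exact (hg' i).self_of_nhds.symm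
    exact AnalyticAt.fun_comp (by rw [h2]; exact hG) h1
  · filter_upwards [eventually_all.2 hg'] with y hy
    simp only [hy]

theorem hol_comp₁ {f : X.pt → ℂ} {G : ℂ → ℂ} {x : X.pt} (hf : X.Hol f x)
    (hG : AnalyticAt ℂ G (f x)) : X.Hol (fun y => G (f y)) x := by
  have h := hol_comp (ι := Unit) (f := fun _ => f) (G := fun z => G (z ())) (x := x) (fun _ => hf)
  exact h (AnalyticAt.fun_comp hG
    ((ContinuousLinearMap.proj (R := ℂ) (φ := fun _ : Unit => ℂ) ()).analyticAt _))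

theorem hol_comp₂ {f g : X.pt → ℂ} {G : ℂ → ℂ → ℂ} {x : X.pt} (hf : X.Hol f x) (hg : X.Hol g x)
    (hG : AnalyticAt ℂ (fun p : ℂ × ℂ => G p.1 p.2) (f x, g x)) :
    X.Hol (fun y => G (f y) (g y)) x := by
  have h := hol_comp (ι := Fin 2) (f := ![f, g]) (G := fun z => G (z 0) (z 1)) (x := x) (by
    intro i; fin_cases i
    · exact hf
    · exact hg)
  refine h ?_
  have h1 : AnalyticAt ℂ (fun z : Fin 2 → ℂ => (z 0, z 1)) (fun i => (![f, g] : Fin 2 → _) i x) :=
    ((ContinuousLinearMap.proj (R := ℂ) (φ := fun _ : Fin 2 => ℂ) 0).analyticAt _).prod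
      ((ContinuousLinearMap.proj (R := ℂ) (φ := fun _ : Fin 2 => ℂ) 1).analyticAt _)
  exact AnalyticAt.fun_comp (f := fun z : Fin 2 → ℂ => (z 0, z 1)) (g := fun p : ℂ × ℂ => G p.1 p.2) hG h1

theorem hol_const (c : ℂ) (x : X.pt) : X.Hol (fun _ => c) x := by
  obtain ⟨N, V, u, hx, hu⟩ := exists_isCoord X x
  exact (hu.iff x hx _).2 ⟨fun _ => c, analyticAt_const, Eventually.of_forall fun _ => rfl⟩

theorem hol_add {f g : X.pt → ℂ} {x : X.pt} (hf : X.Hol f x) (hg : X.Hol g x) :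
    X.Hol (fun y => f y + g y) x :=
  hol_comp₂ hf hg (analyticAt_fst.add analyticAt_snd)

theorem hol_mul {f g : X.pt → ℂ} {x : X.pt} (hf : X.Hol f x) (hg : X.Hol g x) :
    X.Hol (fun y => f y * g y) x :=
  hol_comp₂ hf hg (analyticAt_fst.mul analyticAt_snd)

theorem hol_neg {f : X.pt → ℂ} {x : X.pt} (hf : X.Hol f x) : X.Hol (fun y => -f y) x :=
  hol_comp₁ hf analyticAt_id.neg

theorem hol_sub {f g : X.pt → ℂ} {x : X.pt} (hf : X.Hol f x) (hg : X.Hol g x) :
    X.Hol (fun y => f y - g y) x :=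
  hol_comp₂ hf hg (analyticAt_fst.sub analyticAt_snd)

theorem hol_inv {f : X.pt → ℂ} {x : X.pt} (hf : X.Hol f x) (h : f x ≠ 0) :
    X.Hol (fun y => (f y)⁻¹) x :=
  hol_comp₁ hf (analyticAt_inv h)

theorem hol_div {f g : X.pt → ℂ} {x : X.pt} (hf : X.Hol f x) (hg : X.Hol g x) (h : g x ≠ 0) :
    X.Hol (fun y => f y / g y) x := by
  simpa only [div_eq_mul_inv] using hol_mul hf (hol_inv hg h)

theorem hol_pow {f : X.pt → ℂ} {x : X.pt} (hf : X.Hol f x) (k : ℕ) :
    X.Hol (fun y => f y ^ k) x :=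
  hol_comp₁ hf (analyticAt_id.pow k)

theorem hol_sum {ι : Type} {f : ι → X.pt → ℂ} {x : X.pt} (s : Finset ι)
    (hf : ∀ i ∈ s, X.Hol (f i) x) : X.Hol (fun y => ∑ i ∈ s, f i y) x := by
  classical
  induction s using Finset.induction_on with
  | empty => simpa using hol_const 0 x
  | insert a s ha ih =>
    simp only [Finset.sum_insert ha]
    exact hol_add (hf a (Finset.mem_insert_self _ _))
      (ih fun i hi => hf i (Finset.mem_insert_of_mem hi))

theorem hol_prod {ι : Type} {f : ι → X.pt → ℂ} {x : X.pt} (s : Finset ι)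
    (hf : ∀ i ∈ s, X.Hol (f i) x) : X.Hol (fun y => ∏ i ∈ s, f i y) x := by
  classical
  induction s using Finset.induction_on with
  | empty => simpa using hol_const 1 x
  | insert a s ha ih =>
    simp only [Finset.prod_insert ha]
    exact hol_mul (hf a (Finset.mem_insert_self _ _))
      (ih fun i hi => hf i (Finset.mem_insert_of_mem hi))

/-- Coordinates of a space separate the points near `x`. -/
theorem exists_coord_sep (X : CSp) (x : X.pt) :
    ∃ (N : ℕ) (V : Set X.pt) (u : Fin N → X.pt → ℂ), x ∈ V ∧ IsOpen V ∧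
      (∀ a, ∀ y ∈ V, X.Hol (u a) y) ∧ ∀ y ∈ V, ∀ y' ∈ V, (∀ a, u a y = u a y') → y = y' := by
  obtain ⟨N, V, u, hx, hu⟩ := exists_isCoord X x
  exact ⟨N, V, u, hx, hu.isOpen, hu.hol, fun y hy y' hy' h => hu.injOn hy hy' (funext h)⟩

/-- Two holomorphic functions which agree on a set with `x` in the closure of ... : density version. -/
theorem eventuallyEq_of_dense {f g : X.pt → ℂ} {x : X.pt} {D : Set X.pt} (hD : Dense D)
    (hf : X.Hol f x) (hg : X.Hol g x) (h : ∀ᶠ y in 𝓝 x, y ∈ D → f y = g y) : f =ᶠ[𝓝 x] g := by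
  have h0 : ∀ᶠ y in 𝓝 x, X.Hol f y ∧ X.Hol g y ∧ (y ∈ D → f y = g y) :=
    (hol_eventually hf).and ((hol_eventually hg).and h)
  filter_upwards [h0.eventually_nhds] with y hy
  have h1 : ContinuousAt (fun z => f z - g z) y :=
    (hol_continuousAt hy.self_of_nhds.1).sub (hol_continuousAt hy.self_of_nhds.2.1)
  by_contra hne
  have h2 : ∀ᶠ z in 𝓝 y, f z - g z ≠ 0 := h1.eventually_ne (sub_ne_zero.2 hne)
  obtain ⟨z, ⟨hz1, hz2⟩, hz3⟩ := mem_closure_iff_nhds.1 (hD y) _ (h2.and hy)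
  exact hz1 (sub_eq_zero.2 (hz2.2.2 hz3))

/-! ### topology of `X` -/

instance (X : CSp) : SecondCountableTopology X.pt := by
  choose N V u hx hu using fun x => exists_isCoord X x
  obtain ⟨t, ht⟩ := isCompact_univ.elim_finite_subcover V (fun x => (hu x).isOpen)
    fun x _ => mem_iUnion.2 ⟨x, hx x⟩
  have : ∀ x : t, SecondCountableTopology (V x) := fun x =>
    (hu x).emb.secondCountableTopology
  refine TopologicalSpace.secondCountableTopology_of_countable_cover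
    (U := fun x : t => V x) (fun x => (hu x).isOpen) ?_
  refine eq_univ_of_forall fun y => ?_
  have := ht (mem_univ y)
  simpa using this

instance (X : CSp) : TopologicalSpace.MetrizableSpace X.pt :=
  TopologicalSpace.metrizableSpace_of_t3_secondCountable _

/-! ### holomorphic maps -/

/-- `f` is holomorphic near `x`, as a map `X → Z`. -/
def HolMap (X Z : CSp) (f : X.pt → Z.pt) (x : X.pt) : Prop :=
  ContinuousAt f x ∧ ∀ g, Z.Hol g (f x) → X.Hol (g ∘ f) x

theorem HolAt.analyticAt {d : ℕ} {g : Cm d → X.pt} {p : Cm d} (hg : HolAt X g p) {f : X.pt → ℂ}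
    (hf : X.Hol f (g p)) : AnalyticAt ℂ (fun q => f (g q)) p :=
  hg.2 f hf

theorem HolAt.congr {d : ℕ} {g g' : Cm d → X.pt} {p : Cm d} (hg : HolAt X g p)
    (h : g' =ᶠ[𝓝 p] g) : HolAt X g' p := by
  refine ⟨hg.1.congr h.symm, fun f hf => ?_⟩
  have h1 : AnalyticAt ℂ (f ∘ g) p := hg.2 f (by rwa [← h.self_of_nhds])
  exact h1.congr (h.symm.fun_comp f)

theorem holAt_const {d : ℕ} (x : X.pt) (p : Cm d) : HolAt X (fun _ : Cm d => x) p :=
  ⟨continuousAt_const, fun _ _ => analyticAt_const⟩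

theorem HolAt.comp {d e : ℕ} {g : Cm d → X.pt} {γ : Cm e → Cm d} {q : Cm e}
    (hg : HolAt X g (γ q)) (hγ : AnalyticAt ℂ γ q) : HolAt X (g ∘ γ) q :=
  ⟨hg.1.comp hγ.continuousAt, fun f hf => (hg.2 f hf).comp hγ⟩

theorem HolAt.holMap {d : ℕ} {g : Cm d → X.pt} {p : Cm d} {f : X.pt → Z.pt}
    (hg : HolAt X g p) (hf : HolMap X Z f (g p)) : HolAt Z (f ∘ g) p :=
  ⟨hf.1.comp hg.1, fun h hh => hg.2 (h ∘ f) (hf.2 h hh)⟩

/-- It is enough to check the coordinates. -/
theorem holAt_of_coord {d : ℕ} {g : Cm d → X.pt} {p : Cm d} {V : Set X.pt} {N : ℕ}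
    {u : Fin N → X.pt → ℂ} (hu : IsCoord X V u) (hgV : ∀ᶠ q in 𝓝 p, g q ∈ V)
    (h : ∀ a, AnalyticAt ℂ (fun q => u a (g q)) p) : HolAt X g p := by
  have hp : g p ∈ V := hgV.self_of_nhds
  have h1 : AnalyticAt ℂ (fun q a => u a (g q)) p := AnalyticAt.pi h
  have hc : ContinuousAt g p := by
    rw [ContinuousAt, ← map_nhds_subtype_coe_eq_nhds hp (hu.isOpen.mem_nhds hp)]
    have h2 : 𝓝 (⟨g p, hp⟩ : V) = comap (V.domRestrict fun y a => u a y) (𝓝 fun a => u a (g p)) :=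
      hu.emb.isInducing.nhds_eq_comap _
    intro s hs
    rw [mem_map, h2, mem_comap] at hs
    obtain ⟨t, ht, hts⟩ := hs
    have h3 : ∀ᶠ q in 𝓝 p, (fun a => u a (g q)) ∈ t := h1.continuousAt ht
    rw [mem_map]
    filter_upwards [h3, hgV] with q hq hq'
    exact hts (a := ⟨g q, hq'⟩) hq
  refine ⟨hc, fun f hf => ?_⟩
  obtain ⟨G, hG, h'⟩ := (hu.iff _ hp f).1 hf
  have h2 : AnalyticAt ℂ (fun q => G fun a => u a (g q)) p := AnalyticAt.fun_comp hG h1
  exact h2.congr (EventuallyEq.symm (hc.eventually h'))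

theorem HolAt.eventually {d : ℕ} {g : Cm d → X.pt} {p : Cm d} (hg : HolAt X g p) :
    ∀ᶠ q in 𝓝 p, HolAt X g q := by
  obtain ⟨N, V, u, hx, hu⟩ := exists_isCoord X (g p)
  have h1 : ∀ᶠ q in 𝓝 p, g q ∈ V := hg.1 (hu.isOpen.mem_nhds hx)
  have h2 : ∀ᶠ q in 𝓝 p, ∀ a, AnalyticAt ℂ (fun q => u a (g q)) q :=
    eventually_all.2 fun a => (hg.analyticAt (hu.hol a _ hx)).eventually_analyticAt
  filter_upwards [h1.eventually_nhds, h2] with q hq hq'
  exact holAt_of_coord hu hq hq'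

theorem HolMap.eventually {f : X.pt → Z.pt} {x : X.pt} (hf : HolMap X Z f x) :
    ∀ᶠ y in 𝓝 x, HolMap X Z f y := by
  obtain ⟨N, V, u, hx, hu⟩ := exists_isCoord Z (f x)
  have h1 : ∀ᶠ y in 𝓝 x, f y ∈ V := hf.1 (hu.isOpen.mem_nhds hx)
  have h2 : ∀ᶠ y in 𝓝 x, ∀ a, X.Hol (fun y => u a (f y)) y :=
    eventually_all.2 fun a => hol_eventually (hf.2 _ (hu.hol a _ hx))
  filter_upwards [h1.eventually_nhds, h2] with y hy hy'
  have hp : f y ∈ V := hy.self_of_nhds
  have hc : ContinuousAt f y := by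
    rw [ContinuousAt, ← map_nhds_subtype_coe_eq_nhds hp (hu.isOpen.mem_nhds hp)]
    have h2 : 𝓝 (⟨f y, hp⟩ : V) = comap (V.domRestrict fun y a => u a y) (𝓝 fun a => u a (f y)) :=
      hu.emb.isInducing.nhds_eq_comap _
    intro s hs
    rw [mem_map, h2, mem_comap] at hs
    obtain ⟨t, ht, hts⟩ := hs
    have h3 : ∀ᶠ q in 𝓝 y, (fun a => u a (f q)) ∈ t :=
      (continuousAt_pi.2 fun a => hol_continuousAt (hy' a)) ht
    rw [mem_map]
    filter_upwards [h3, hy] with q hq hq'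
    exact hts (a := ⟨f q, hq'⟩) hq
  refine ⟨hc, fun g hg => ?_⟩
  obtain ⟨G, hG, h'⟩ := (hu.iff _ hp g).1 hg
  exact hol_congr (hol_comp hy' hG) (hc.eventually h')

end Vale.Agent.P277
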