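import Vale.Agent.P277.A.Basic
import Mathlib.Topology.MetricSpace.HausdorffDimension
import Mathlib.LinearAlgebra.Complex.FiniteDimensional

/-!
# P277, package A: dimension of countable unions of holomorphic images
-/

open scoped Manifold ContDiff Topology
open Vale.Agent.P272.K Vale.Agent.P285.H281.FD Set Filter

noncomputable section

namespace Vale.Agent.P277

variable {X Z : CSp} {d : ℕ} {S S' : Set X.pt}

theorem DimLe.nonempty (h : DimLe X d S) : Nonempty X.pt := by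
  obtain ⟨Ω, g, -, -, -⟩ := h
  exact ⟨g 0 0⟩

theorem DimLe.mono (h : DimLe X d S) (hS : S' ⊆ S) : DimLe X d S' := by
  obtain ⟨Ω, g, h1, h2, h3⟩ := h
  exact ⟨Ω, g, h1, h2, hS.trans h3⟩

theorem dimLe_of_family [Nonempty X.pt] {κ : Type} [Countable κ] (Ω : κ → Set (Cm d))
    (g : κ → Cm d → X.pt) (h1 : ∀ k, IsOpen (Ω k)) (h2 : ∀ k, ∀ p ∈ Ω k, HolAt X (g k) p)
    (h3 : S ⊆ ⋃ k, g k '' Ω k) : DimLe X d S := by
  classical
  rcases isEmpty_or_nonempty κ with hκ | hκ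
  · refine ⟨fun _ => ∅, fun _ _ => Classical.arbitrary _, fun _ => isOpen_empty, fun _ _ h => h.elim,
      fun x hx => ?_⟩
    obtain ⟨k, -⟩ := mem_iUnion.1 (h3 hx)
    exact (hκ.false k).elim
  · obtain ⟨e, he⟩ := exists_surjective_nat κ
    refine ⟨fun n => Ω (e n), fun n => g (e n), fun n => h1 _, fun n => h2 _, fun x hx => ?_⟩
    obtain ⟨k, hk⟩ := mem_iUnion.1 (h3 hx)
    obtain ⟨n, rfl⟩ := he k
    exact mem_iUnion.2 ⟨n, hk⟩

theorem dimLe_iUnion [Nonempty X.pt] {κ : Type} [Countable κ] {T : κ → Set X.pt}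
    (h : ∀ k, DimLe X d (T k)) : DimLe X d (⋃ k, T k) := by
  choose Ω g h1 h2 h3 using h
  refine dimLe_of_family (κ := κ × ℕ) (fun k => Ω k.1 k.2) (fun k => g k.1 k.2) (fun k => h1 _ _)
    (fun k => h2 _ _) ?_
  refine iUnion_subset fun k x hx => ?_
  obtain ⟨n, hn⟩ := mem_iUnion.1 (h3 k hx)
  exact mem_iUnion.2 ⟨(k, n), hn⟩

theorem DimLe.union (h : DimLe X d S) (h' : DimLe X d S') : DimLe X d (S ∪ S') := by
  have := h.nonempty
  have h1 : ∀ b : Bool, DimLe X d (bif b then S else S') := by rintro (_ | _) <;> assumption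
  refine (dimLe_iUnion h1).mono fun x hx => ?_
  rcases hx with hx | hx
  · exact mem_iUnion.2 ⟨true, hx⟩
  · exact mem_iUnion.2 ⟨false, hx⟩

theorem dimLe_biUnion [Nonempty X.pt] {κ : Type} {I : Set κ} (hI : I.Countable) {T : κ → Set X.pt}
    (h : ∀ k ∈ I, DimLe X d (T k)) : DimLe X d (⋃ k ∈ I, T k) := by
  have := hI.to_subtype
  refine (dimLe_iUnion (κ := I) (T := fun k => T k) fun k => h k k.2).mono ?_
  intro x hx
  simp only [mem_iUnion] at hx ⊢
  obtain ⟨k, hk, hx⟩ := hx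
  exact ⟨⟨k, hk⟩, hx⟩

theorem dimLe_of_countable [Nonempty X.pt] (hS : S.Countable) : DimLe X d S := by
  have := hS.to_subtype
  refine dimLe_of_family (κ := S) (fun _ => univ) (fun k _ => k) (fun _ => isOpen_univ)
    (fun k p _ => holAt_const _ _) fun x hx => ?_
  exact mem_iUnion.2 ⟨⟨x, hx⟩, 0, mem_univ _, rfl⟩

theorem dimLe_empty [Nonempty X.pt] : DimLe X d (∅ : Set X.pt) := dimLe_of_countable countable_empty

theorem dimLe_singleton (x : X.pt) : DimLe X d {x} :=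
  have : Nonempty X.pt := ⟨x⟩
  dimLe_of_countable (countable_singleton x)

theorem DimLe.countable (h : DimLe X 0 S) : S.Countable := by
  obtain ⟨Ω, g, -, -, h3⟩ := h
  refine Countable.mono h3 (countable_iUnion fun k => ?_)
  exact (Subsingleton.countable (subsingleton_of_subsingleton (s := Ω k))).image _

theorem dimLe_zero_iff [Nonempty X.pt] : DimLe X 0 S ↔ S.Countable :=
  ⟨DimLe.countable, dimLe_of_countable⟩

/-- the projection `ℂ^e → ℂ^d`, `d ≤ e` -/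
def prj {d e : ℕ} (h : d ≤ e) : Cm e →L[ℂ] Cm d :=
  ContinuousLinearMap.pi fun i => ContinuousLinearMap.proj (Fin.castLE h i)

theorem prj_surjective {d e : ℕ} (h : d ≤ e) : Function.Surjective (prj h) := by
  intro z
  refine ⟨fun i => if hi : i.1 < d then z ⟨i.1, hi⟩ else 0, ?_⟩
  ext i
  simp [prj]

theorem DimLe.le (h : DimLe X d S) {e : ℕ} (hde : d ≤ e) : DimLe X e S := by
  obtain ⟨Ω, g, h1, h2, h3⟩ := h
  refine ⟨fun k => prj hde ⁻¹' Ω k, fun k => g k ∘ prj hde,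
    fun k => (h1 k).preimage (prj hde).continuous,
    fun k p hp => (h2 k _ hp).comp ((prj hde).analyticAt p), fun x hx => ?_⟩
  obtain ⟨k, p, hp, rfl⟩ := mem_iUnion.1 (h3 hx)
  obtain ⟨q, rfl⟩ := prj_surjective hde p
  exact mem_iUnion.2 ⟨k, q, hp, rfl⟩

/-- Images of sets of dimension `≤ d` under holomorphic maps. -/
theorem DimLe.image (h : DimLe X d S) {f : X.pt → Z.pt} (hf : ∀ x ∈ S, HolMap X Z f x) :
    DimLe Z d (f '' S) := by
  obtain ⟨Ω, g, h1, h2, h3⟩ := h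
  refine ⟨fun k => {p | p ∈ Ω k ∧ HolMap X Z f (g k p)}, fun k => f ∘ g k, fun k => ?_,
    fun k p hp => (h2 k p hp.1).holMap hp.2, ?_⟩
  · rw [isOpen_iff_eventually]
    intro p hp
    exact ((h1 k).eventually_mem hp.1).and ((h2 k p hp.1).1.eventually hp.2.eventually)
  · rintro _ ⟨x, hx, rfl⟩
    obtain ⟨k, p, hp, rfl⟩ := mem_iUnion.1 (h3 hx)
    exact mem_iUnion.2 ⟨k, p, ⟨hp, hf _ hx⟩, rfl⟩

/-- The parametrisations can be taken defined near closed balls, with image in the sets of a given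
open cover. -/
theorem DimLe.refine (h : DimLe X d S) {ι : Type} {U : ι → Set X.pt} (hU : ∀ i, IsOpen (U i))
    (hS : S ⊆ ⋃ i, U i) :
    ∃ (κ : Type) (_ : Countable κ) (c : κ → Cm d) (r : κ → ℝ) (g : κ → Cm d → X.pt) (i : κ → ι),
      (∀ k, 0 < r k) ∧ (∀ k, ∀ p ∈ Metric.closedBall (c k) (r k), HolAt X (g k) p) ∧
      (∀ k, ∀ p ∈ Metric.closedBall (c k) (r k), g k p ∈ U (i k)) ∧
      S ⊆ ⋃ k, g k '' Metric.ball (c k) (r k) := by
  obtain ⟨Ω, g, h1, h2, h3⟩ := h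
  have key : ∀ (k : ℕ) (p : Cm d), p ∈ Ω k → g k p ∈ ⋃ i, U i → ∃ (r : ℝ) (i : ι), 0 < r ∧
      Metric.closedBall p r ⊆ Ω k ∩ g k ⁻¹' U i := by
    intro k p hp hp'
    obtain ⟨i, hi⟩ := mem_iUnion.1 hp'
    have h4 : Ω k ∩ g k ⁻¹' U i ∈ 𝓝 p :=
      inter_mem ((h1 k).mem_nhds hp) ((h2 k p hp).1 ((hU i).mem_nhds hi))
    obtain ⟨r, hr, hr'⟩ := Metric.nhds_basis_closedBall.mem_iff.1 h4
    exact ⟨r, i, hr, hr'⟩
  choose! r i hr hi using key
  have key2 : ∀ k, ∃ t ⊆ {p | p ∈ Ω k ∧ g k p ∈ ⋃ i, U i}, t.Countable ∧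
      {p | p ∈ Ω k ∧ g k p ∈ ⋃ i, U i} ⊆ ⋃ p ∈ t, Metric.ball p (r k p) := by
    intro k
    refine TopologicalSpace.countable_cover_nhdsWithin fun p hp => mem_nhdsWithin_of_mem_nhds ?_
    exact Metric.ball_mem_nhds p (hr k p hp.1 hp.2)
  choose t ht htc htS using key2
  have : ∀ k, Countable (t k) := fun k => (htc k).to_subtype
  refine ⟨Σ k, t k, inferInstance, fun q => q.2, fun q => r q.1 q.2, fun q => g q.1,
    fun q => i q.1 q.2 (ht _ q.2.2).1 (ht _ q.2.2).2, fun q => hr _ _ (ht _ q.2.2).1 (ht _ q.2.2).2, fun q p hp => ?_,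
    fun q p hp => ?_, fun x hx => ?_⟩
  · exact h2 _ p (hi _ _ (ht _ q.2.2).1 (ht _ q.2.2).2 hp).1
  · exact (hi _ _ (ht _ q.2.2).1 (ht _ q.2.2).2 hp).2
  · obtain ⟨k, p, hp, rfl⟩ := mem_iUnion.1 (h3 hx)
    have h5 := htS k (show p ∈ {p | p ∈ Ω k ∧ g k p ∈ ⋃ i, U i} from ⟨hp, hS hx⟩)
    simp only [mem_iUnion] at h5
    obtain ⟨q, hq, hq'⟩ := h5
    exact mem_iUnion.2 ⟨⟨k, q, hq⟩, p, hq', rfl⟩

/-- Hausdorff dimension of `C¹` images of balls. -/
theorem dimH_image_ball {m n : ℕ} {g : Cm m → Cm n} {c : Cm m} {r : ℝ}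
    (hg : ContDiffOn ℝ 1 g (Metric.ball c r)) : dimH (g '' Metric.ball c r) ≤ (2 * m : ℕ) := by
  refine (hg.dimH_image_le (convex_ball c r) Subset.rfl).trans ?_
  refine (dimH_mono (subset_univ _)).trans ?_
  rw [Real.dimH_univ_eq_finrank]
  simp [Module.finrank_pi_fintype]
  rw [mul_comm]

theorem finrank_Cm (n : ℕ) : Module.finrank ℝ (Cm n) = 2 * n := by
  simp [Module.finrank_pi_fintype, mul_comm]

/-- Sets of dimension `< n` have empty interior in a space of pure dimension `n`. -/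
theorem interior_eq_empty_of_dimLe {n : ℕ} (hdn : d < n) (hX : Dense {x | IsReg n X x})
    (hS : DimLe X d S) : interior S = ∅ := by
  by_contra hne
  obtain ⟨x, hxS, hx⟩ := hX.inter_open_nonempty _ isOpen_interior (nonempty_iff_ne_empty.2 hne)
  obtain ⟨V, Ω, h, φ, hxV, hM⟩ := hx
  set W : Set X.pt := V ∩ interior S with hW
  have hWo : IsOpen W := hM.isOpen.inter isOpen_interior
  -- `φ '' W` is open
  have h0 : IsOpen (φ '' W) := by
    have h1 : IsOpen ((↑) ⁻¹' interior S : Set V) := isOpen_interior.preimage continuous_subtype_val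
    obtain ⟨T, hT, hT'⟩ := hM.emb.isInducing.isOpen_iff.1 h1
    have h2 : φ '' W = Ω ∩ T := by
      ext z
      constructor
      · rintro ⟨y, ⟨hy1, hy2⟩, rfl⟩
        refine ⟨?_, ?_⟩
        · have h3 : φ y ∈ φ '' V := ⟨y, hy1, rfl⟩
          rw [hM.image] at h3
          exact h3.1
        · have h3 : (⟨y, hy1⟩ : V) ∈ V.domRestrict φ ⁻¹' T := by rw [hT']; exact hy2
          exact h3
      · rintro ⟨hz1, hz2⟩
        have h3 : z ∈ φ '' V := by
          rw [hM.image]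
          exact ⟨hz1, fun i => i.elim0⟩
        obtain ⟨y, hy, rfl⟩ := h3
        refine ⟨y, ⟨hy, ?_⟩, rfl⟩
        have h3 : (⟨y, hy⟩ : V) ∈ V.domRestrict φ ⁻¹' T := hz2
        rw [hT'] at h3
        exact h3
    rw [h2]
    exact hM.isOpen'.inter hT
  obtain ⟨κ, hκ, c, r, g, i, hr, hg, hgU, hcov⟩ := (hS.mono (show W ⊆ S from
    fun y hy => interior_subset hy.2)).refine (U := fun _ : Unit => V) (fun _ => hM.isOpen)
      (fun y hy => mem_iUnion.2 ⟨(), hy.1⟩)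
  have h1 : φ '' W ⊆ ⋃ k, (φ ∘ g k) '' Metric.ball (c k) (r k) := by
    rintro _ ⟨y, hy, rfl⟩
    obtain ⟨k, p, hp, rfl⟩ := mem_iUnion.1 (hcov hy)
    exact mem_iUnion.2 ⟨k, p, hp, rfl⟩
  have h2 : dimH (φ '' W) ≤ (2 * d : ℕ) := by
    refine (dimH_mono h1).trans ?_
    rw [dimH_iUnion]
    refine iSup_le fun k => dimH_image_ball ?_
    intro p hp
    have hp' := Metric.ball_subset_closedBall hp
    have h3 : AnalyticAt ℂ (φ ∘ g k) p := by
      have h4 : ∀ a, AnalyticAt ℂ (fun q => φ (g k q) a) p := fun a =>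
        (hg k p hp').analyticAt (hM.isCoord.hol a _ (hgU k p hp'))
      exact AnalyticAt.pi h4
    exact (h3.restrictScalars (𝕜 := ℝ)).contDiffAt.contDiffWithinAt
  have h3 : Dense (φ '' W)ᶜ := by
    refine dense_compl_of_dimH_lt_finrank (h2.trans_lt ?_)
    rw [finrank_Cm]
    exact_mod_cast (by omega : 2 * d < 2 * n)
  obtain ⟨z, hz1, hz2⟩ := h3.inter_open_nonempty _ h0 ⟨φ x, x, ⟨hxV, hxS⟩, rfl⟩
  exact hz2 hz1

theorem dense_compl_of_dimLe {n : ℕ} (hdn : d < n) (hX : Dense {x | IsReg n X x})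
    (hS : DimLe X d S) : Dense Sᶜ :=
  interior_eq_empty_iff_dense_compl.1 (interior_eq_empty_of_dimLe hdn hX hS)

/-! ### small morphisms -/

theorem IsSmall.holMap {f : X.pt → Z.pt} {A : Set Z.pt} (h : IsSmall X Z f A) (x : X.pt) :
    HolMap X Z f x :=
  ⟨h.cont.continuousAt, h.holo x⟩

/-- the inverse of a small morphism (arbitrary over `A`) -/
def IsSmall.sec {f : X.pt → Z.pt} {A : Set Z.pt} (h : IsSmall X Z f A) : Z.pt → X.pt :=
  Function.surjInv h.surj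

theorem IsSmall.sec_eq {f : X.pt → Z.pt} {A : Set Z.pt} (h : IsSmall X Z f A) (z : Z.pt) :
    f (h.sec z) = z := Function.surjInv_eq h.surj z

theorem IsSmall.sec_apply {f : X.pt → Z.pt} {A : Set Z.pt} (h : IsSmall X Z f A) {x : X.pt}
    (hx : f x ∉ A) : h.sec (f x) = x :=
  h.inj x _ hx (h.sec_eq (f x))

theorem isClosedMap_of_continuous {f : X.pt → Z.pt} (hf : Continuous f) : IsClosedMap f :=
  hf.isClosedMap

/-- Neighbourhoods of the fibre contain full preimages of neighbourhoods. -/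
theorem exists_nhds_preimage_subset {f : X.pt → Z.pt} (hf : Continuous f) {z : Z.pt} {U : Set X.pt}
    (hU : IsOpen U) (h : f ⁻¹' {z} ⊆ U) : ∃ V : Set Z.pt, IsOpen V ∧ z ∈ V ∧ f ⁻¹' V ⊆ U := by
  refine ⟨(f '' Uᶜ)ᶜ, (hf.isClosedMap _ hU.isClosed_compl).isOpen_compl, ?_, ?_⟩
  · rintro ⟨x, hx, hxz⟩
    exact hx (h hxz)
  · intro x hx
    by_contra hxU
    exact hx ⟨x, hxU, rfl⟩

theorem IsSmall.holMap_sec {f : X.pt → Z.pt} {A : Set Z.pt} (h : IsSmall X Z f A) {z : Z.pt}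
    (hz : z ∉ A) : HolMap Z X h.sec z := by
  have hc : ContinuousAt h.sec z := by
    intro U hU
    obtain ⟨U', hU'U, hU', hzU'⟩ := mem_nhds_iff.1 hU
    have h1 : f ⁻¹' {z} ⊆ U' := by
      intro x hx
      have h2 : x = h.sec z := h.inj _ _ (by rw [h.sec_eq]; exact hz) (by rw [h.sec_eq]; exact hx)
      rw [h2]; exact hzU'
    obtain ⟨V, hV, hzV, hVU⟩ := exists_nhds_preimage_subset h.cont hU' h1
    refine mem_map.2 (mem_of_superset (hV.mem_nhds hzV) fun w hw => hU'U (hVU ?_))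
    rw [mem_preimage, h.sec_eq]; exact hw
  refine ⟨hc, fun g hg => ?_⟩
  obtain ⟨k, hk, hk'⟩ := h.iso (h.sec z) g (by rw [h.sec_eq]; exact hz) hg
  rw [h.sec_eq] at hk
  refine hol_congr hk ?_
  filter_upwards [hc.eventually hk'] with w hw
  simp only [Function.comp] at hw ⊢
  rw [hw, h.sec_eq]

theorem IsSmall.dimLe_preimage {f : X.pt → Z.pt} {A : Set Z.pt} (h : IsSmall X Z f A)
    {T : Set Z.pt} (hT : DimLe Z d T) : DimLe X d (f ⁻¹' (T \ A)) := by
  refine ((hT.mono (sdiff_subset (t := A))).image (f := h.sec) fun z hz => h.holMap_sec hz.2).mono ?_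
  intro x hx
  exact ⟨f x, hx, h.sec_apply hx.2⟩

theorem isClosed_of_isAn {A : Set X.pt} (hA : IsAn X univ A) : IsClosed A := by
  rw [← isOpen_compl_iff, isOpen_iff_eventually]
  intro x hx
  obtain ⟨k, h, hh, hA'⟩ := hA x (mem_univ x)
  have h1 : ¬ ∀ i, h i x = 0 := fun h0 => hx ((hA'.self_of_nhds).2 h0)
  push Not at h1
  obtain ⟨i, hi⟩ := h1
  filter_upwards [hA', (hol_continuousAt (hh i)).eventually_ne hi] with y hy hy' hyA
  exact hy' (hy.1 hyA i)

theorem IsSmall.isClosed {f : X.pt → Z.pt} {A : Set Z.pt} (h : IsSmall X Z f A) : IsClosed A :=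
  isClosed_of_isAn h.an

theorem IsAn.preimage {f : X.pt → Z.pt} (hf : ∀ x, HolMap X Z f x) {V A : Set Z.pt}
    (hA : IsAn Z V A) : IsAn X (f ⁻¹' V) (f ⁻¹' A) := by
  intro x hx
  obtain ⟨k, h, hh, hA'⟩ := hA (f x) hx
  exact ⟨k, fun i => h i ∘ f, fun i => (hf x).2 _ (hh i), (hf x).1.eventually hA'⟩

theorem IsAn.mono {V V' A : Set X.pt} (hA : IsAn X V A) (hV : V' ⊆ V) : IsAn X V' A :=
  fun x hx => hA x (hV hx)

end Vale.Agent.P277
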