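import Vale.Agent.P277.A.Dim
import Vale.Agent.P277.Stmts

/-!
# P277, package A: open embeddings of manifolds in complex spaces
-/

open scoped Manifold ContDiff Topology
open Vale.Agent.P272.K Vale.Agent.P285.H281.FD Set Filter

noncomputable section

namespace Vale.Agent.P277

variable {Y : Type} [TopologicalSpace Y] [ChartedSpace (Cm 4) Y] {X Z X' : CSp} {O : Set Y}
  {v : Y → X.pt}

theorem IsOpenEmb.continuousAt (hv : IsOpenEmb X O v) {y : Y} (hy : y ∈ O) : ContinuousAt v y :=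
  hv.cont.continuousAt (hv.isOpen.mem_nhds hy)

theorem IsOpenEmb.isOpen_image (hv : IsOpenEmb X O v) : IsOpen (v '' O) :=
  hv.isOpenMap O Subset.rfl hv.isOpen

theorem IsOpenEmb.mono (hv : IsOpenEmb X O v) {O' : Set Y} (hO' : IsOpen O') (h : O' ⊆ O) :
    IsOpenEmb X O' v where
  isOpen := hO'
  cont := hv.cont.mono h
  inj := hv.inj.mono h
  isOpenMap W hW := hv.isOpenMap W (hW.trans h)
  hol y hy := hv.hol y (h hy)

theorem IsOpenEmb.image_mem_nhds (hv : IsOpenEmb X O v) {y : Y} (hy : y ∈ O) {W : Set Y}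
    (hW : W ∈ 𝓝 y) : v '' W ∈ 𝓝 (v y) := by
  obtain ⟨W', hW', ho, hyW⟩ := mem_nhds_iff.1 (inter_mem hW (hv.isOpen.mem_nhds hy))
  exact mem_of_superset ((hv.isOpenMap W' (fun z hz => (hW' hz).2) ho).mem_nhds ⟨y, hyW, rfl⟩)
    (image_mono fun z hz => (hW' hz).1)

theorem IsOpenEmb.map_nhds (hv : IsOpenEmb X O v) {y : Y} (hy : y ∈ O) :
    map v (𝓝 y) = 𝓝 (v y) :=
  le_antisymm (hv.continuousAt hy) fun _ hW => mem_of_superset (hv.image_mem_nhds hy hW)
    (image_subset_iff.2 Subset.rfl)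

/-- The inverse map `v(O) → O`. -/
def IsOpenEmb.inv (_ : IsOpenEmb X O v) (y₀ : Y) : X.pt → Y := by
  classical
  exact fun x => if h : x ∈ v '' O then h.choose else y₀

theorem IsOpenEmb.inv_apply (hv : IsOpenEmb X O v) (y₀ : Y) {y : Y} (hy : y ∈ O) :
    hv.inv y₀ (v y) = y := by
  have h : v y ∈ v '' O := ⟨y, hy, rfl⟩
  have h1 : hv.inv y₀ (v y) = h.choose := by simp only [IsOpenEmb.inv, dif_pos h]
  rw [h1]
  exact hv.inj h.choose_spec.1 hy h.choose_spec.2

theorem IsOpenEmb.apply_inv (hv : IsOpenEmb X O v) (y₀ : Y) {x : X.pt} (hx : x ∈ v '' O) :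
    v (hv.inv y₀ x) = x := by
  obtain ⟨y, hy, rfl⟩ := hx
  rw [hv.inv_apply y₀ hy]

theorem IsOpenEmb.inv_mem (hv : IsOpenEmb X O v) (y₀ : Y) {x : X.pt} (hx : x ∈ v '' O) :
    hv.inv y₀ x ∈ O := by
  obtain ⟨y, hy, rfl⟩ := hx
  rwa [hv.inv_apply y₀ hy]

theorem IsOpenEmb.inv_continuousAt (hv : IsOpenEmb X O v) (y₀ : Y) {y : Y} (hy : y ∈ O) :
    ContinuousAt (hv.inv y₀) (v y) := by
  rw [ContinuousAt, hv.inv_apply y₀ hy, ← hv.map_nhds hy, tendsto_map'_iff]
  refine Tendsto.congr' ?_ tendsto_id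
  filter_upwards [hv.isOpen.mem_nhds hy] with z hz
  simp [hv.inv_apply y₀ hz]

/-- A function on `X` is holomorphic at `v y` iff it is holomorphic in one chart at `y`. -/
theorem IsOpenEmb.hol_iff (hv : IsOpenEmb X O v) {y : Y} (hy : y ∈ O) {e : Chart 4 Y} (he : At e y)
    {g : X.pt → ℂ} : X.Hol g (v y) ↔ AnalyticAt ℂ (fun z => g (v (e.symm z))) (e y) :=
  hv.hol y hy e he g

/-- functions defined on the manifold -/
theorem IsOpenEmb.hol_of_analyticAt (hv : IsOpenEmb X O v) (y₀ : Y) {y : Y} (hy : y ∈ O)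
    {e : Chart 4 Y} (he : At e y) {g : Y → ℂ} (hg : AnalyticAt ℂ (fun z => g (e.symm z)) (e y)) :
    X.Hol (fun x => g (hv.inv y₀ x)) (v y) := by
  rw [hv.hol_iff hy he]
  refine hg.congr ?_
  have h1 : ∀ᶠ z in 𝓝 (e y), e.symm z ∈ O := by
    have h2 : ContinuousAt e.symm (e y) := e.continuousAt_symm (e.map_source he.2)
    refine h2.eventually_mem ?_
    rw [e.left_inv he.2]
    exact hv.isOpen.mem_nhds hy
  filter_upwards [h1] with z hz
  rw [hv.inv_apply y₀ hz]

/-- the coordinates of a chart -/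
theorem IsOpenEmb.hol_chart (hv : IsOpenEmb X O v) (y₀ : Y) {y : Y} (hy : y ∈ O)
    {e : Chart 4 Y} (he : At e y) (a : Fin 4) : X.Hol (fun x => e (hv.inv y₀ x) a) (v y) := by
  refine hv.hol_of_analyticAt y₀ hy he (g := fun y => e y a) ?_
  refine ((ContinuousLinearMap.proj (R := ℂ) (φ := fun _ : Fin 4 => ℂ) a).analyticAt _).congr ?_
  filter_upwards [e.open_target.mem_nhds (e.map_source he.2)] with z hz
  simp [e.right_inv hz]

/-- The chart gives a model of `X` near `v y`. -/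
theorem IsOpenEmb.isModel (hv : IsOpenEmb X O v) (y₀ : Y) {e : Chart 4 Y}
    (he : e ∈ atlas (Cm 4) Y) :
    IsModel X.Hol (v '' (O ∩ e.source)) (e '' (O ∩ e.source)) (fun i : Fin 0 => i.elim0)
      (fun x => e (hv.inv y₀ x)) where
  isOpen := hv.isOpenMap _ inter_subset_left (hv.isOpen.inter e.open_source)
  isOpen' := e.isOpen_image_of_subset_source (hv.isOpen.inter e.open_source) inter_subset_right
  holo i := i.elim0
  image := by
    ext z
    constructor
    · rintro ⟨_, ⟨y, hy, rfl⟩, rfl⟩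
      exact ⟨⟨y, hy, by simp only [hv.inv_apply y₀ hy.1]⟩, fun i => i.elim0⟩
    · rintro ⟨⟨y, hy, rfl⟩, -⟩
      exact ⟨v y, ⟨y, hy, rfl⟩, by simp only [hv.inv_apply y₀ hy.1]⟩
  emb := by
    refine ⟨Topology.isInducing_iff_nhds.2 ?_, ?_⟩
    · intro w
      obtain ⟨y, hy, hyw⟩ := w.2
      have h1 : (v '' (O ∩ e.source)) ∈ 𝓝 (v y) :=
        (hv.isOpenMap _ inter_subset_left (hv.isOpen.inter e.open_source)).mem_nhds ⟨y, hy, rfl⟩
      have hw : (v '' (O ∩ e.source)).domRestrict (fun x => e (hv.inv y₀ x)) w = e y := by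
        rw [domRestrict_apply, ← hyw, hv.inv_apply y₀ hy.1]
      rw [nhds_subtype, hw, ← hyw]
      apply le_antisymm
      · rw [← tendsto_iff_comap]
        have h2 : ContinuousAt (fun x => e (hv.inv y₀ x)) (v y) :=
          ContinuousAt.comp (by rw [hv.inv_apply y₀ hy.1]; exact e.continuousAt hy.2)
            (hv.inv_continuousAt y₀ hy.1)
        have h3 := h2.tendsto
        simp only [hv.inv_apply y₀ hy.1] at h3
        exact h3.comp tendsto_comap
      · intro s hs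
        rw [mem_comap] at hs
        obtain ⟨t, ht, hts⟩ := hs
        have h3 : v ⁻¹' t ∩ (O ∩ e.source) ∈ 𝓝 y :=
          inter_mem (hv.continuousAt hy.1 ht)
            (inter_mem (hv.isOpen.mem_nhds hy.1) (e.open_source.mem_nhds hy.2))
        have h4 : e '' (v ⁻¹' t ∩ (O ∩ e.source)) ∈ 𝓝 (e y) := by
          rw [← e.map_nhds_eq hy.2]
          exact image_mem_map h3
        rw [mem_comap]
        refine ⟨_, h4, ?_⟩
        rintro w' ⟨q, ⟨hw1, hw2⟩, hw3⟩
        obtain ⟨y', hy', hyw'⟩ := w'.2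
        rw [domRestrict_apply, ← hyw', hv.inv_apply y₀ hy'.1] at hw3
        have h5 : q = y' := e.injOn hw2.2 hy'.2 hw3
        subst h5
        refine hts ?_
        change w'.1 ∈ t
        rw [← hyw']
        exact hw1
    · rintro ⟨_, y, hy, rfl⟩ ⟨_, y', hy', rfl⟩ h
      simp only [domRestrict_apply, hv.inv_apply y₀ hy.1, hv.inv_apply y₀ hy'.1] at h
      have : y = y' := e.injOn hy.2 hy'.2 h
      subst this
      rfl
  hol := by
    rintro _ ⟨y, hy, rfl⟩ f
    simp only [hv.inv_apply y₀ hy.1]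
    have heq : ∀ᶠ z in 𝓝 (e y), e (hv.inv y₀ (v (e.symm z))) = z := by
      have h1 : ∀ᶠ z in 𝓝 (e y), e.symm z ∈ O := by
        have h2 : ContinuousAt e.symm (e y) := e.continuousAt_symm (e.map_source hy.2)
        refine h2.eventually_mem ?_
        rw [e.left_inv hy.2]
        exact hv.isOpen.mem_nhds hy.1
      filter_upwards [h1, e.open_target.mem_nhds (e.map_source hy.2)] with z hz hz'
      rw [hv.inv_apply y₀ hz, e.right_inv hz']
    rw [hv.hol_iff hy.1 ⟨he, hy.2⟩]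
    constructor
    · intro h
      refine ⟨_, h, ?_⟩
      have h1 : (v '' (O ∩ e.source)) ∈ 𝓝 (v y) :=
        (hv.isOpenMap _ inter_subset_left (hv.isOpen.inter e.open_source)).mem_nhds ⟨y, hy, rfl⟩
      filter_upwards [h1] with x hx
      obtain ⟨y', hy', rfl⟩ := hx
      simp only [Function.comp, hv.inv_apply y₀ hy'.1, e.left_inv hy'.2]
    · rintro ⟨g, hg, hfg⟩
      refine hg.congr ?_
      have h3 : Tendsto (fun z => v (e.symm z)) (𝓝 (e y)) (𝓝 (v y)) := by
        have h2 : ContinuousAt e.symm (e y) := e.continuousAt_symm (e.map_source hy.2)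
        have h4 : ContinuousAt v (e.symm (e y)) := by
          rw [e.left_inv hy.2]; exact hv.continuousAt hy.1
        have h5 := (ContinuousAt.comp (g := v) h4 h2).tendsto
        rw [Function.comp_apply, e.left_inv hy.2] at h5
        exact h5
      filter_upwards [h3.eventually hfg, heq] with z hz hz'
      rw [hz]
      simp only [Function.comp, hz']

theorem IsOpenEmb.isReg (hv : IsOpenEmb X O v) {y : Y} (hy : y ∈ O) : IsReg 4 X (v y) :=
  ⟨v '' (O ∩ (chartAt (Cm 4) y).source), _, _, _,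
    mem_image_of_mem v ⟨hy, mem_chart_source (Cm 4) y⟩, hv.isModel y (chart_mem_atlas (Cm 4) y)⟩

theorem IsOpenEmb.holAt (hv : IsOpenEmb X O v) {y : Y} (hy : y ∈ O) {e : Chart 4 Y} (he : At e y) :
    HolAt X (fun z => v (e.symm z)) (e y) := by
  refine ⟨?_, fun f hf => ?_⟩
  · have h2 : ContinuousAt e.symm (e y) := e.continuousAt_symm (e.map_source he.2)
    have h4 : ContinuousAt v (e.symm (e y)) := by
      rw [e.left_inv he.2]; exact hv.continuousAt hy
    exact ContinuousAt.comp (g := v) h4 h2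
  · have h1 : v (e.symm (e y)) = v y := by rw [e.left_inv he.2]
    exact (hv.hol_iff hy he).1 (h1 ▸ hf)

/-- Dense set of regular points. -/
theorem IsOpenEmb.dense_isReg (hv : IsOpenEmb X O v) (hd : Dense (v '' O)) :
    Dense {x | IsReg 4 X x} :=
  hd.mono (by rintro _ ⟨y, hy, rfl⟩; exact hv.isReg hy)

/-! ### the flip step -/

theorem IsSmall.eventuallyEq_sec {f : X.pt → Z.pt} {A : Set Z.pt} (h : IsSmall X Z f A) {x : X.pt}
    (hx : f x ∉ A) : ∀ᶠ x' in 𝓝 x, h.sec (f x') = x' := by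
  have h1 : ∀ᶠ x' in 𝓝 x, f x' ∉ A :=
    h.cont.continuousAt.eventually_mem (h.isClosed.isOpen_compl.mem_nhds hx)
  filter_upwards [h1] with x' hx'
  exact h.sec_apply hx'

theorem IsSmall.hol_sec_iff {f : X.pt → Z.pt} {A : Set Z.pt} (h : IsSmall X Z f A) {z : Z.pt}
    (hz : z ∉ A) {g : X.pt → ℂ} : X.Hol g (h.sec z) ↔ Z.Hol (g ∘ h.sec) z := by
  refine ⟨fun hg => (h.holMap_sec hz).2 g hg, fun hg => ?_⟩
  have h1 : Z.Hol (g ∘ h.sec) (f (h.sec z)) := by rwa [h.sec_eq]
  refine hol_congr (h.holo _ _ h1) ?_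
  filter_upwards [h.eventuallyEq_sec (x := h.sec z) (by rwa [h.sec_eq])] with x hx
  simp only [Function.comp, hx]

theorem IsSmall.hol_comp_iff {f : X.pt → Z.pt} {A : Set Z.pt} (h : IsSmall X Z f A) {x : X.pt}
    (hx : f x ∉ A) {k : Z.pt → ℂ} : X.Hol (k ∘ f) x ↔ Z.Hol k (f x) := by
  refine ⟨fun hk => ?_, fun hk => h.holo x k hk⟩
  have h1 : h.sec (f x) = x := h.sec_apply hx
  have h2 : X.Hol (k ∘ f) (h.sec (f x)) := by rwa [h1]
  refine hol_congr ((h.hol_sec_iff hx).1 h2) (Eventually.of_forall fun z => ?_)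
  simp only [Function.comp, h.sec_eq]

theorem IsSmall.isOpen_image {f : X.pt → Z.pt} {A : Set Z.pt} (h : IsSmall X Z f A) {W : Set X.pt}
    (hW : IsOpen W) (hWA : ∀ x ∈ W, f x ∉ A) : IsOpen (f '' W) := by
  have h1 : f '' W = (f '' Wᶜ)ᶜ := by
    ext z
    constructor
    · rintro ⟨x, hx, rfl⟩ ⟨x', hx', hxx'⟩
      exact hx' (h.inj x x' (hWA x hx) hxx' ▸ hx)
    · intro hz
      obtain ⟨x, rfl⟩ := h.surj z
      by_contra hz'
      exact hz ⟨x, fun hx => hz' ⟨x, hx, rfl⟩, rfl⟩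
  rw [h1]
  exact (h.cont.isClosedMap _ hW.isClosed_compl).isOpen_compl

/-- The manifold part after a flip. -/
theorem IsOpenEmb.flip (hv : IsOpenEmb X O v) {f : X.pt → Z.pt} {f' : X'.pt → Z.pt} {A : Set Z.pt}
    (h : IsSmall X Z f A) (h' : IsSmall X' Z f' A) :
    IsOpenEmb X' {y | y ∈ O ∧ f (v y) ∉ A} (fun y => h'.sec (f (v y))) where
  isOpen := by
    rw [isOpen_iff_eventually]
    rintro y ⟨hy, hyA⟩
    have h1 : ContinuousAt (fun y => f (v y)) y :=
      ContinuousAt.comp (g := f) h.cont.continuousAt (hv.continuousAt hy)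
    exact (hv.isOpen.eventually_mem hy).and
      (h1.eventually_mem (h.isClosed.isOpen_compl.mem_nhds hyA))
  cont := by
    rintro y ⟨hy, hyA⟩
    have h1 : ContinuousAt (fun y => f (v y)) y :=
      ContinuousAt.comp (g := f) h.cont.continuousAt (hv.continuousAt hy)
    exact (ContinuousAt.comp (f := fun y => f (v y)) (g := h'.sec) (h'.holMap_sec hyA).1
      h1).continuousWithinAt
  inj := by
    rintro y ⟨hy, hyA⟩ y' ⟨hy', hyA'⟩ hyy'
    have h1 : f (v y) = f (v y') := by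
      have := congrArg f' hyy'
      simpa only [h'.sec_eq] using this
    exact hv.inj hy hy' (h.inj _ _ hyA' h1)
  isOpenMap := by
    intro W hW hWo
    have h1 : IsOpen (f '' (v '' W)) := by
      refine h.isOpen_image (hv.isOpenMap W (fun y hy => (hW hy).1) hWo) ?_
      rintro _ ⟨y, hy, rfl⟩
      exact (hW hy).2
    have h2 : (fun y => h'.sec (f (v y))) '' W = f' ⁻¹' (f '' (v '' W)) := by
      ext x'
      constructor
      · rintro ⟨y, hy, rfl⟩
        exact ⟨v y, ⟨y, hy, rfl⟩, by rw [h'.sec_eq]⟩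
      · rintro ⟨_, ⟨y, hy, rfl⟩, hx'⟩
        refine ⟨y, hy, ?_⟩
        have h3 : f' x' ∉ A := hx' ▸ (hW hy).2
        simp only [hx']
        exact h'.sec_apply h3
    rw [h2]
    exact h1.preimage h'.cont
  hol := by
    rintro y ⟨hy, hyA⟩ e he g
    rw [h'.hol_sec_iff hyA, ← h.hol_comp_iff hyA]
    exact hv.hol_iff hy he

omit [TopologicalSpace Y] [ChartedSpace (Cm 4) Y] in
/-- The complement of the manifold part after a flip. -/
theorem dimLe_compl_flip {f : X.pt → Z.pt} {f' : X'.pt → Z.pt} {A : Set Z.pt}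
    (h : IsSmall X Z f A) (h' : IsSmall X' Z f' A) {d : ℕ} (hO : DimLe X d (v '' O)ᶜ)
    (hA : DimLe X' d (f' ⁻¹' A)) :
    DimLe X' d ((fun y => h'.sec (f (v y))) '' {y | y ∈ O ∧ f (v y) ∉ A})ᶜ := by
  refine (hA.union (h'.dimLe_preimage (hO.image fun x _ => h.holMap x))).mono ?_
  intro x' hx'
  by_cases hxA : f' x' ∈ A
  · exact Or.inl hxA
  · refine Or.inr ⟨⟨h.sec (f' x'), ?_, h.sec_eq _⟩, hxA⟩
    rintro ⟨y, hy, hyx⟩
    refine hx' ⟨y, ⟨hy, ?_⟩, ?_⟩
    · rw [hyx, h.sec_eq]; exact hxA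
    · simp only [hyx, h.sec_eq]
      exact h'.sec_apply hxA

/-! ### Jacobians -/

/-- the derivative of `G : X → ℂ⁴` in the chart `e` -/
def jacL (v : Y → X.pt) (G : Fin 4 → X.pt → ℂ) (e : Chart 4 Y) (z : Cm 4) : Cm 4 →L[ℂ] Cm 4 :=
  ContinuousLinearMap.pi fun i => fderiv ℂ (fun z => G i (v (e.symm z))) z

omit [ChartedSpace (Cm 4) Y] in
theorem Jac_eq_det (v : Y → X.pt) (G : Fin 4 → X.pt → ℂ) (e : Chart 4 Y) (z : Cm 4) :
    Jac v G e z = LinearMap.det (jacL v G e z : Cm 4 →ₗ[ℂ] Cm 4) := by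
  rw [← LinearMap.det_toMatrix', Jac]
  congr 1

theorem IsOpenEmb.jacL_eq_fderiv (hv : IsOpenEmb X O v) {y : Y} (hy : y ∈ O) {e : Chart 4 Y}
    (he : At e y) {G : Fin 4 → X.pt → ℂ} (hG : ∀ i, X.Hol (G i) (v y)) :
    HasFDerivAt (fun z i => G i (v (e.symm z))) (jacL v G e (e y)) (e y) :=
  hasFDerivAt_pi'.2 fun i => by
    have h1 := ((hv.hol_iff hy he).1 (hG i)).differentiableAt.hasFDerivAt
    exact h1

theorem trans_analyticAt [IsManifold 𝓘(ℂ, Cm 4) ω Y] {y : Y} {e e' : Chart 4 Y} (he : At e y)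
    (he' : At e' y) : AnalyticAt ℂ (fun z => e' (e.symm z)) (e y) := by
  have h1 := HasGroupoid.compatible (G := contDiffGroupoid ω 𝓘(ℂ, Cm 4)) he.1 he'.1
  rw [contDiffGroupoid, mem_groupoid_of_pregroupoid] at h1
  have h2 : ContDiffOn ℂ ω (fun z => e' (e.symm z)) (e.symm.trans e').source := by
    have := h1.1
    simpa [contDiffPregroupoid, Function.comp_def] using this
  have h3 : (e.symm.trans e').source ∈ 𝓝 (e y) := by
    refine (e.symm.trans e').open_source.mem_nhds ?_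
    simp [he.2, he'.2, e.left_inv he.2]
  exact (h2.contDiffAt h3).analyticAt

theorem Jac_ne_zero_iff [IsManifold 𝓘(ℂ, Cm 4) ω Y] (hv : IsOpenEmb X O v) {y : Y} (hy : y ∈ O)
    {e e' : Chart 4 Y} (he : At e y) (he' : At e' y) {G : Fin 4 → X.pt → ℂ}
    (hG : ∀ i, X.Hol (G i) (v y)) : Jac v G e (e y) ≠ 0 ↔ Jac v G e' (e' y) ≠ 0 := by
  have key : ∀ {e e' : Chart 4 Y}, At e y → At e' y → Jac v G e (e y) ≠ 0 →
      Jac v G e' (e' y) ≠ 0 := by
    intro e e' he he' h
    have h1 := hv.jacL_eq_fderiv hy he hG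
    have h2 := hv.jacL_eq_fderiv hy he' hG
    have h3 := (trans_analyticAt he he').differentiableAt.hasFDerivAt
    have h4 : HasFDerivAt (fun z i => G i (v (e'.symm (e' (e.symm z)))))
        ((jacL v G e' (e' y)).comp (fderiv ℂ (fun z => e' (e.symm z)) (e y))) (e y) := by
      refine HasFDerivAt.comp (g := fun z i => G i (v (e'.symm z))) (e y) ?_ h3
      simpa only [e.left_inv he.2] using h2
    have h5 : (fun z i => G i (v (e'.symm (e' (e.symm z))))) =ᶠ[𝓝 (e y)]
        fun z i => G i (v (e.symm z)) := by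
      have h6 : ∀ᶠ z in 𝓝 (e y), e.symm z ∈ e'.source := by
        refine (e.continuousAt_symm (e.map_source he.2)).eventually_mem ?_
        rw [e.left_inv he.2]
        exact e'.open_source.mem_nhds he'.2
      filter_upwards [h6] with z hz
      rw [e'.left_inv hz]
    have h6 := (h4.congr_of_eventuallyEq h5.symm).unique h1
    rw [Jac_eq_det, ← h6] at h
    rw [ContinuousLinearMap.toLinearMap_comp, LinearMap.det_comp] at h
    rw [Jac_eq_det]
    exact left_ne_zero_of_mul h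
  exact ⟨key he he', key he' he⟩

end Vale.Agent.P277
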