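import Vale.Agent.P277.Defs
import Mathlib.Analysis.Calculus.ContDiff.Basic
import Mathlib.Analysis.Complex.Basic

/-!
# P277: smooth functions on complex spaces, smooth sections of line bundles (definitions)

`Sm X f x`: near `x` the function `f` is a real smooth function of finitely many holomorphic functions.
-/

open scoped Manifold ContDiff Topology
open Vale.Agent.P272.K Vale.Agent.P285.H281.FD Set Filter

noncomputable section

namespace Vale.Agent.P277

/-- `f` is smooth near `x`: it is there a smooth function of finitely many holomorphic functions. -/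
def Sm (X : CSp) (f : X.pt → ℂ) (x : X.pt) : Prop :=
  ∃ (M : ℕ) (φ : Fin M → X.pt → ℂ) (G : Cm M → ℂ), (∀ a, X.Hol (φ a) x) ∧
    (∀ᶠ p in 𝓝 (fun a => φ a x), ContDiffAt ℝ ∞ G p) ∧ f =ᶠ[𝓝 x] fun y => G (fun a => φ a y)

/-- `s` is a smooth section of `L` over `V`, with coefficient `s i` over `U i`. -/
structure IsSmSec (X : CSp) (V : Set X.pt) (L : Bd X.pt) (s : L.ι → X.pt → ℂ) : Prop where
  smooth : ∀ i, ∀ x ∈ V, x ∈ L.U i → Sm X (s i) x
  change : ∀ i j, ∀ x ∈ V, x ∈ L.U i → x ∈ L.U j → s i x = L.g i j x * s j x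

end Vale.Agent.P277
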