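import Vale.Agent.P277.A.Emb
import Vale.Agent.P277.A.SmDefs
import Mathlib.Analysis.Calculus.BumpFunction.FiniteDimension
import Mathlib.Analysis.Calculus.ContDiff.RCLike
import Mathlib.Analysis.Complex.Basic
import Mathlib.Analysis.InnerProductSpace.Calculus

/-!
# P277, package A2: smooth functions on complex spaces, cutoff functions, smooth sections
-/

open scoped Manifold ContDiff Topology
open Vale.Agent.P272.K Vale.Agent.P285.H281.FD Set Filter

noncomputable section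

namespace Vale.Agent.P277

variable {X Z : CSp}

/-! ### the algebra of smooth functions -/

theorem Sm.congr {f g : X.pt → ℂ} {x : X.pt} (hf : Sm X f x) (h : f =ᶠ[𝓝 x] g) : Sm X g x := by
  obtain ⟨M, φ, G, h1, h2, h3⟩ := hf
  exact ⟨M, φ, G, h1, h2, h.symm.trans h3⟩

theorem Sm.continuousAt {f : X.pt → ℂ} {x : X.pt} (hf : Sm X f x) : ContinuousAt f x := by
  obtain ⟨M, φ, G, h1, h2, h3⟩ := hf
  have h4 : ContinuousAt (fun y => G fun a => φ a y) x :=
    ContinuousAt.comp (f := fun y a => φ a y) (g := G) h2.self_of_nhds.continuousAt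
      (continuousAt_pi.2 fun a => hol_continuousAt (h1 a))
  exact h4.congr h3.symm

theorem Sm.eventually {f : X.pt → ℂ} {x : X.pt} (hf : Sm X f x) : ∀ᶠ y in 𝓝 x, Sm X f y := by
  obtain ⟨M, φ, G, h1, h2, h3⟩ := hf
  have h4 : ContinuousAt (fun y a => φ a y) x := continuousAt_pi.2 fun a => hol_continuousAt (h1 a)
  filter_upwards [eventually_all.2 fun a => hol_eventually (h1 a), h3.eventually_nhds,
    h4.eventually h2.eventually_nhds] with y hy1 hy2 hy3
  exact ⟨M, φ, G, hy1, hy3, hy2⟩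

/-- Composition with a smooth function. -/
theorem Sm.comp {ι : Type} [Fintype ι] {f : ι → X.pt → ℂ} {F : (ι → ℂ) → ℂ} {x : X.pt}
    (hf : ∀ i, Sm X (f i) x) (hF : ∀ᶠ p in 𝓝 (fun i => f i x), ContDiffAt ℝ ∞ F p) :
    Sm X (fun y => F fun i => f i y) x := by
  classical
  choose M φ G h1 h2 h3 using hf
  let e : (Σ i, Fin (M i)) ≃ Fin (Fintype.card (Σ i, Fin (M i))) := Fintype.equivFin _
  let Φ : Fin (Fintype.card (Σ i, Fin (M i))) → X.pt → ℂ := fun b => φ (e.symm b).1 (e.symm b).2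
  let R : ∀ i, Cm (Fintype.card (Σ i, Fin (M i))) → Cm (M i) := fun i z a => z (e ⟨i, a⟩)
  have hR : ∀ i y, R i (fun b => Φ b y) = fun a => φ i a y := by
    intro i y
    funext a
    change φ (e.symm (e ⟨i, a⟩)).1 (e.symm (e ⟨i, a⟩)).2 y = φ i a y
    rw [e.symm_apply_apply]
  have hRc : ∀ i, ContDiff ℝ ∞ (R i) := fun i =>
    contDiff_pi.2 fun a => contDiff_apply ℝ ℂ _
  have h4 : ∀ᶠ p in 𝓝 (fun b => Φ b x), ∀ i, ContDiffAt ℝ ∞ (G i) (R i p) := by
    refine eventually_all.2 fun i => ?_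
    have h5 : ContinuousAt (R i) (fun b => Φ b x) := (hRc i).continuous.continuousAt
    refine h5.eventually ?_
    rw [hR]
    exact h2 i
  have h6 : (fun i => G i (R i fun b => Φ b x)) = fun i => f i x := by
    funext i
    rw [hR]
    exact ((h3 i).self_of_nhds).symm
  have h7 : ContinuousAt (fun p i => G i (R i p)) (fun b => Φ b x) := by
    refine continuousAt_pi.2 fun i => ?_
    exact ContinuousAt.comp (g := G i) (h4.self_of_nhds i).continuousAt
      (hRc i).continuous.continuousAt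
  have h8 : ∀ᶠ p in 𝓝 (fun b => Φ b x), ContDiffAt ℝ ∞ F (fun i => G i (R i p)) := by
    refine h7.eventually (p := fun q => ContDiffAt ℝ ∞ F q) ?_
    change ∀ᶠ q in 𝓝 (fun i => G i (R i fun b => Φ b x)), ContDiffAt ℝ ∞ F q
    rw [h6]
    exact hF
  refine ⟨_, Φ, fun p => F fun i => G i (R i p), fun b => h1 _ _, ?_, ?_⟩
  · filter_upwards [h4, h8] with p hp hp'
    exact ContDiffAt.comp (g := F) (f := fun p i => G i (R i p)) p hp'
      (contDiffAt_pi.2 fun i => (hp i).comp p (hRc i).contDiffAt)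
  · filter_upwards [eventually_all.2 h3] with y hy
    simp only [hR, hy]

theorem Sm.comp₁ {f : X.pt → ℂ} {F : ℂ → ℂ} {x : X.pt} (hf : Sm X f x)
    (hF : ∀ᶠ p in 𝓝 (f x), ContDiffAt ℝ ∞ F p) : Sm X (fun y => F (f y)) x := by
  have h := Sm.comp (ι := Unit) (f := fun _ => f) (F := fun z => F (z ())) (x := x) (fun _ => hf)
  refine h ?_
  have h1 : ContinuousAt (fun z : Unit → ℂ => z ()) (fun _ => f x) :=
    (continuous_apply ()).continuousAt
  filter_upwards [h1.eventually hF] with p hp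
  exact ContDiffAt.comp (g := F) (f := fun z : Unit → ℂ => z ()) p hp
    (contDiff_apply ℝ ℂ ()).contDiffAt

theorem Sm.comp₂ {f g : X.pt → ℂ} {F : ℂ × ℂ → ℂ} {x : X.pt} (hf : Sm X f x) (hg : Sm X g x)
    (hF : ∀ᶠ p in 𝓝 (f x, g x), ContDiffAt ℝ ∞ F p) : Sm X (fun y => F (f y, g y)) x := by
  have h := Sm.comp (ι := Fin 2) (f := ![f, g]) (F := fun z => F (z 0, z 1)) (x := x) (by
    intro i; fin_cases i
    · exact hf
    · exact hg)
  refine h ?_
  have h1 : ContinuousAt (fun z : Fin 2 → ℂ => (z 0, z 1)) (fun i => (![f, g] : Fin 2 → _) i x) :=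
    ((continuous_apply 0).prodMk (continuous_apply 1)).continuousAt
  filter_upwards [h1.eventually hF] with p hp
  exact ContDiffAt.comp (g := F) (f := fun z : Fin 2 → ℂ => (z 0, z 1)) p hp
    ((contDiff_apply ℝ ℂ 0).prodMk (contDiff_apply ℝ ℂ 1)).contDiffAt

theorem sm_of_hol {f : X.pt → ℂ} {x : X.pt} (hf : X.Hol f x) : Sm X f x :=
  ⟨1, fun _ => f, fun z => z 0, fun _ => hf,
    Eventually.of_forall fun _ => (contDiff_apply ℝ ℂ 0).contDiffAt, Eventually.of_forall fun _ => rfl⟩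

theorem sm_const (c : ℂ) (x : X.pt) : Sm X (fun _ => c) x := sm_of_hol (hol_const c x)

theorem Sm.add {f g : X.pt → ℂ} {x : X.pt} (hf : Sm X f x) (hg : Sm X g x) :
    Sm X (fun y => f y + g y) x :=
  hf.comp₂ (F := fun p => p.1 + p.2) hg
    (Eventually.of_forall fun _ => (contDiff_fst.add contDiff_snd).contDiffAt)

theorem Sm.mul {f g : X.pt → ℂ} {x : X.pt} (hf : Sm X f x) (hg : Sm X g x) :
    Sm X (fun y => f y * g y) x :=
  hf.comp₂ (F := fun p => p.1 * p.2) hg
    (Eventually.of_forall fun _ => (contDiff_fst.mul contDiff_snd).contDiffAt)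

theorem Sm.neg {f : X.pt → ℂ} {x : X.pt} (hf : Sm X f x) : Sm X (fun y => -f y) x :=
  hf.comp₁ (F := fun p => -p) (Eventually.of_forall fun _ => contDiff_neg.contDiffAt)

theorem Sm.sub {f g : X.pt → ℂ} {x : X.pt} (hf : Sm X f x) (hg : Sm X g x) :
    Sm X (fun y => f y - g y) x :=
  hf.comp₂ (F := fun p => p.1 - p.2) hg
    (Eventually.of_forall fun _ => (contDiff_fst.sub contDiff_snd).contDiffAt)

theorem Sm.conj {f : X.pt → ℂ} {x : X.pt} (hf : Sm X f x) :
    Sm X (fun y => (starRingEnd ℂ) (f y)) x :=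
  hf.comp₁ (F := fun p => (starRingEnd ℂ) p)
    (Eventually.of_forall fun _ => Complex.conjCLE.contDiff.contDiffAt)

theorem Sm.inv {f : X.pt → ℂ} {x : X.pt} (hf : Sm X f x) (h : f x ≠ 0) :
    Sm X (fun y => (f y)⁻¹) x :=
  hf.comp₁ (F := fun p => p⁻¹) ((isOpen_ne.eventually_mem h).mono fun _ hp => contDiffAt_inv ℝ hp)

theorem Sm.div {f g : X.pt → ℂ} {x : X.pt} (hf : Sm X f x) (hg : Sm X g x) (h : g x ≠ 0) :
    Sm X (fun y => f y / g y) x := by
  simpa only [div_eq_mul_inv] using hf.mul (hg.inv h)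

theorem Sm.pow {f : X.pt → ℂ} {x : X.pt} (hf : Sm X f x) (k : ℕ) : Sm X (fun y => f y ^ k) x :=
  hf.comp₁ (F := fun p => p ^ k) (Eventually.of_forall fun _ => (contDiff_id.pow k).contDiffAt)

theorem Sm.sum {ι : Type} {f : ι → X.pt → ℂ} {x : X.pt} (s : Finset ι)
    (hf : ∀ i ∈ s, Sm X (f i) x) : Sm X (fun y => ∑ i ∈ s, f i y) x := by
  classical
  induction s using Finset.induction_on with
  | empty => simpa using sm_const 0 x
  | insert a s ha ih =>
    simp only [Finset.sum_insert ha]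
    exact (hf a (Finset.mem_insert_self _ _)).add
      (ih fun i hi => hf i (Finset.mem_insert_of_mem hi))

theorem Sm.prod {ι : Type} {f : ι → X.pt → ℂ} {x : X.pt} (s : Finset ι)
    (hf : ∀ i ∈ s, Sm X (f i) x) : Sm X (fun y => ∏ i ∈ s, f i y) x := by
  classical
  induction s using Finset.induction_on with
  | empty => simpa using sm_const 1 x
  | insert a s ha ih =>
    simp only [Finset.prod_insert ha]
    exact (hf a (Finset.mem_insert_self _ _)).mul
      (ih fun i hi => hf i (Finset.mem_insert_of_mem hi))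

/-- Real smooth functions of the real part. -/
theorem Sm.real {f : X.pt → ℂ} {x : X.pt} (hf : Sm X f x) {c : ℝ → ℝ} (hc : ContDiff ℝ ∞ c) :
    Sm X (fun y => ((c (f y).re : ℝ) : ℂ)) x :=
  hf.comp₁ (F := fun p => ((c p.re : ℝ) : ℂ)) (Eventually.of_forall fun _ =>
    (Complex.ofRealCLM.contDiff.comp (hc.comp Complex.reCLM.contDiff)).contDiffAt)

theorem Sm.real_ofReal {f : X.pt → ℝ} {x : X.pt} (hf : Sm X (fun y => (f y : ℂ)) x) {c : ℝ → ℝ}
    (hc : ContDiff ℝ ∞ c) : Sm X (fun y => ((c (f y) : ℝ) : ℂ)) x := by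
  simpa using hf.real hc

theorem Sm.normSq {f : X.pt → ℂ} {x : X.pt} (hf : Sm X f x) :
    Sm X (fun y => ((‖f y‖ ^ 2 : ℝ) : ℂ)) x := by
  refine (hf.mul hf.conj).congr (Eventually.of_forall fun y => ?_)
  simp only [Complex.mul_conj, Complex.normSq_eq_norm_sq]

theorem Sm.ofReal_add {f g : X.pt → ℝ} {x : X.pt} (hf : Sm X (fun y => (f y : ℂ)) x)
    (hg : Sm X (fun y => (g y : ℂ)) x) : Sm X (fun y => ((f y + g y : ℝ) : ℂ)) x := by
  simpa using hf.add hg

theorem Sm.ofReal_mul {f g : X.pt → ℝ} {x : X.pt} (hf : Sm X (fun y => (f y : ℂ)) x)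
    (hg : Sm X (fun y => (g y : ℂ)) x) : Sm X (fun y => ((f y * g y : ℝ) : ℂ)) x := by
  simpa using hf.mul hg

theorem Sm.re {f : X.pt → ℂ} {x : X.pt} (hf : Sm X f x) : Sm X (fun y => ((f y).re : ℂ)) x :=
  hf.real contDiff_id

/-- Pull back by a holomorphic map. -/
theorem Sm.holMap {f : Z.pt → ℂ} {g : X.pt → Z.pt} {x : X.pt} (hf : Sm Z f (g x))
    (hg : HolMap X Z g x) : Sm X (fun y => f (g y)) x := by
  obtain ⟨M, φ, G, h1, h2, h3⟩ := hf
  exact ⟨M, fun a y => φ a (g y), G, fun a => hg.2 _ (h1 a), h2, hg.1.eventually h3⟩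

theorem Sm.comp_holAt {d : ℕ} {f : X.pt → ℂ} {g : Cm d → X.pt} {p : Cm d} (hf : Sm X f (g p))
    (hg : HolAt X g p) : ContDiffAt ℝ ∞ (fun q => f (g q)) p := by
  obtain ⟨M, φ, G, h1, h2, h3⟩ := hf
  have h4 : ContDiffAt ℝ ∞ (fun q => G fun a => φ a (g q)) p := by
    refine ContDiffAt.comp (g := G) (f := fun q a => φ a (g q)) p h2.self_of_nhds
      (contDiffAt_pi.2 fun a => ?_)
    exact ((hg.analyticAt (h1 a)).restrictScalars (𝕜 := ℝ)).contDiffAt
  exact h4.congr_of_eventuallyEq (hg.1.eventually h3)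

theorem Sm.comp_holAt_eventually {d : ℕ} {f : X.pt → ℂ} {g : Cm d → X.pt} {p : Cm d}
    (hf : Sm X f (g p)) (hg : HolAt X g p) :
    ∀ᶠ q in 𝓝 p, ContDiffAt ℝ ∞ (fun q => f (g q)) q := by
  filter_upwards [hg.eventually, hg.1.eventually hf.eventually] with q hq hq'
  exact hq'.comp_holAt hq

theorem Sm.comp_emb {Y : Type} [TopologicalSpace Y] [ChartedSpace (Cm 4) Y] {O : Set Y}
    {v : Y → X.pt} (hv : IsOpenEmb X O v) {y : Y} (hy : y ∈ O) {e : Chart 4 Y} (he : At e y)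
    {f : X.pt → ℂ} (hf : Sm X f (v y)) : ContDiffAt ℝ ∞ (fun z => f (v (e.symm z))) (e y) := by
  refine Sm.comp_holAt (g := fun z => v (e.symm z)) ?_ (hv.holAt hy he)
  have h1 : v (e.symm (e y)) = v y := by rw [e.left_inv he.2]
  rw [h1]
  exact hf

/-! ### cutoff functions -/

/-- A cutoff function at a point. -/
theorem exists_cutoff_point (x : X.pt) {W : Set X.pt} (hW : IsOpen W) (hxW : x ∈ W) :
    ∃ χ : X.pt → ℝ, (∀ y, Sm X (fun y => (χ y : ℂ)) y) ∧ (∀ y, 0 ≤ χ y ∧ χ y ≤ 1) ∧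
      (∀ᶠ y in 𝓝 x, χ y = 1) ∧ tsupport χ ⊆ W := by
  classical
  obtain ⟨N, V, u, hxV, hu⟩ := exists_isCoord X x
  obtain ⟨V1, hV1, hxV1, hV1c, hV1W⟩ : ∃ V1 : Set X.pt, IsOpen V1 ∧ x ∈ V1 ∧
      closure V1 ⊆ V ∩ W ∧ True := by
    obtain ⟨V1, h1, h2⟩ := (closed_nhds_basis x).mem_iff.1
      ((hu.isOpen.inter hW).mem_nhds ⟨hxV, hxW⟩)
    exact ⟨interior V1, isOpen_interior, mem_interior_iff_mem_nhds.2 h1.1,
      (closure_minimal interior_subset h1.2).trans h2, trivial⟩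
  have hsub : V1 ⊆ V ∩ W := subset_closure.trans hV1c
  let U : X.pt → Cm N := fun y a => u a y
  have hUc : ContinuousOn U V := hu.cont
  -- the boundary is compact and does not meet the point
  have hδ : ∃ δ > 0, ∀ y ∈ closure V1, y ∉ V1 → δ ≤ dist (U y) (U x) := by
    have hK : IsCompact (closure V1 \ V1) := (isClosed_closure.sdiff hV1).isCompact
    have hc : ContinuousOn (fun y => dist (U y) (U x)) (closure V1 \ V1) :=
      continuous_dist.comp_continuousOn
        (ContinuousOn.prodMk (hUc.mono fun y (hy : y ∈ closure V1 \ V1) => (hV1c hy.1).1)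
          continuousOn_const)
    rcases (closure V1 \ V1).eq_empty_or_nonempty with he | hne
    · exact ⟨1, one_pos, fun y hy hy' => ((he ▸ (⟨hy, hy'⟩ : y ∈ closure V1 \ V1) :
        y ∈ (∅ : Set X.pt))).elim⟩
    · obtain ⟨y₀, hy₀, hmin⟩ := hK.exists_isMinOn hne hc
      refine ⟨dist (U y₀) (U x), ?_, fun y hy hy' => hmin ⟨hy, hy'⟩⟩
      refine dist_pos.2 fun h => ?_
      have : y₀ = x := hu.injOn (hV1c hy₀.1).1 hxV h
      exact hy₀.2 (this ▸ hxV1)
  obtain ⟨δ, hδ, hδ'⟩ := hδ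
  let B : ContDiffBump (U x) := ⟨δ / 4, δ / 2, by positivity, by linarith⟩
  have hB0 : ∀ y ∈ closure V1, y ∉ V1 → B (U y) = 0 := fun y hy hy' =>
    B.zero_of_le_dist (by have := hδ' y hy hy'; change δ / 2 ≤ _; linarith)
  let χ : X.pt → ℝ := fun y => if y ∈ V1 then B (U y) else 0
  -- near points of `V1`
  have h1 : ∀ y ∈ V1, χ =ᶠ[𝓝 y] fun y => B (U y) := fun y hy => by
    filter_upwards [hV1.mem_nhds hy] with z hz
    simp only [χ, if_pos hz]
  -- the support
  have hsupp : tsupport χ ⊆ V1 := by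
    have hS : IsClosed {y | y ∈ closure V1 ∧ dist (U y) (U x) ≤ δ / 2} := by
      have hc : ContinuousOn (fun y => dist (U y) (U x)) (closure V1) :=
        continuous_dist.comp_continuousOn
          (ContinuousOn.prodMk (hUc.mono fun y (hy : y ∈ closure V1) => (hV1c hy).1)
            continuousOn_const)
      exact hc.preimage_isClosed_of_isClosed isClosed_closure isClosed_Iic
    have hsub2 : Function.support χ ⊆ {y | y ∈ closure V1 ∧ dist (U y) (U x) ≤ δ / 2} := by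
      intro y hy
      by_cases hyV : y ∈ V1
      · refine ⟨subset_closure hyV, ?_⟩
        by_contra hlt
        refine hy ?_
        simp only [χ, if_pos hyV]
        exact B.zero_of_le_dist (le_of_lt (not_le.1 hlt))
      · exact (hy (by simp only [χ, if_neg hyV])).elim
    refine (closure_minimal hsub2 hS).trans ?_
    rintro y ⟨hy1, hy2⟩
    by_contra hyV
    have := hδ' y hy1 hyV
    linarith
  refine ⟨χ, fun y => ?_, fun y => ?_, ?_, hsupp.trans fun y hy => (hsub hy).2⟩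
  · by_cases hy : y ∈ V1
    · have h2 : Sm X (fun y => ((B (U y) : ℝ) : ℂ)) y := by
        refine Sm.comp (F := fun z : Fin N → ℂ => ((B z : ℝ) : ℂ)) (f := u)
          (fun a => sm_of_hol (hu.hol a y (hsub hy).1)) (Eventually.of_forall fun z => ?_)
        exact (Complex.ofRealCLM.contDiff.comp B.contDiff).contDiffAt
      refine h2.congr ?_
      filter_upwards [h1 y hy] with z hz
      rw [hz]
    · refine (sm_const 0 y).congr ?_
      have h2 : ∀ᶠ z in 𝓝 y, z ∉ tsupport χ :=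
        (isClosed_tsupport χ).isOpen_compl.mem_nhds fun h => hy (hsupp h)
      filter_upwards [h2] with z hz
      rw [image_eq_zero_of_notMem_tsupport hz]
      simp
  · by_cases hy : y ∈ V1
    · simp only [χ, if_pos hy]
      exact ⟨B.nonneg, B.le_one⟩
    · simp only [χ, if_neg hy]
      exact ⟨le_rfl, zero_le_one⟩
  · have h2 : ∀ᶠ y in 𝓝 x, B (U y) = 1 := (hu.continuousAt hxV).eventually B.eventuallyEq_one
    filter_upwards [h1 x hxV1, h2] with y hy hy'
    rw [hy, hy']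

/-- Cutoff functions. -/
theorem exists_cutoff {K W : Set X.pt} (hK : IsClosed K) (hW : IsOpen W) (hKW : K ⊆ W) :
    ∃ χ : X.pt → ℝ, (∀ x, Sm X (fun y => (χ y : ℂ)) x) ∧ (∀ x, 0 ≤ χ x ∧ χ x ≤ 1) ∧
      (∀ᶠ x in 𝓝ˢ K, χ x = 1) ∧ tsupport χ ⊆ W := by
  classical
  choose! χ h1 h2 h3 h4 using fun (x : X.pt) (hx : x ∈ K) => exists_cutoff_point x hW (hKW hx)
  obtain ⟨t, ht⟩ := hK.isCompact.elim_nhds_subcover' (fun x _ => {y | ∀ᶠ z in 𝓝 y, χ x z = 1})
    fun x hx => (h3 x hx).eventually_nhds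
  refine ⟨fun y => 1 - ∏ x ∈ t, (1 - χ x y), fun y => ?_, fun y => ?_, ?_, ?_⟩
  · have h5 : Sm X (fun y => 1 - ∏ x ∈ t, (1 - (χ x y : ℂ))) y :=
      (sm_const 1 y).sub (Sm.prod t fun x hx => (sm_const 1 y).sub (h1 x x.2 y))
    simpa using h5
  · have h5 : 0 ≤ ∏ x ∈ t, (1 - χ x y) := Finset.prod_nonneg fun x _ =>
      sub_nonneg.2 (h2 x x.2 y).2
    have h6 : ∏ x ∈ t, (1 - χ x y) ≤ 1 := Finset.prod_le_one
      (fun x _ => sub_nonneg.2 (h2 x x.2 y).2) fun x _ => by
        have := (h2 x x.2 y).1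
        linarith
    constructor <;> linarith
  · rw [eventually_nhdsSet_iff_forall]
    intro x hx
    obtain ⟨x₁, hx₁, hx₁'⟩ : ∃ x₁ ∈ t, ∀ᶠ z in 𝓝 x, χ x₁ z = 1 := by
      have := ht hx
      simpa using this
    filter_upwards [hx₁'] with z hz
    rw [Finset.prod_eq_zero hx₁ (by rw [hz, sub_self]), sub_zero]
  · have h5 : Function.support (fun y => 1 - ∏ x ∈ t, (1 - χ x y)) ⊆ ⋃ x ∈ t, tsupport (χ x) := by
      intro y hy
      by_contra hy'
      simp only [mem_iUnion, not_exists] at hy'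
      refine hy ?_
      have h6 : ∏ x ∈ t, (1 - χ x y) = 1 := Finset.prod_eq_one fun x hx => by
        rw [image_eq_zero_of_notMem_tsupport (hy' x hx), sub_zero]
      simp only [h6, sub_self]
    refine (closure_minimal h5 (t.finite_toSet.isClosed_biUnion fun x _ =>
      isClosed_tsupport _)).trans ?_
    exact iUnion₂_subset fun x _ => h4 x x.2

/-! ### smooth sections -/

theorem IsSecx.isSmSec {V : Set X.pt} {L : Bd X.pt} {s : L.ι → X.pt → ℂ} (hs : IsSecx X V L s) :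
    IsSmSec X V L s :=
  ⟨fun i x hx hi => sm_of_hol (hs.holo i x hx hi), hs.change⟩

theorem IsSmSec.mono {V V' : Set X.pt} {L : Bd X.pt} {s : L.ι → X.pt → ℂ} (hs : IsSmSec X V L s)
    (h : V' ⊆ V) : IsSmSec X V' L s :=
  ⟨fun i x hx hi => hs.smooth i x (h hx) hi, fun i j x hx => hs.change i j x (h hx)⟩

theorem isSmSec_zero {V : Set X.pt} {L : Bd X.pt} : IsSmSec X V L (fun _ _ => 0) :=
  ⟨fun _ x _ _ => sm_const 0 x, fun _ _ _ _ _ _ => by simp⟩

theorem IsSmSec.add {V : Set X.pt} {L : Bd X.pt} {s t : L.ι → X.pt → ℂ} (hs : IsSmSec X V L s)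
    (ht : IsSmSec X V L t) : IsSmSec X V L (fun i x => s i x + t i x) :=
  ⟨fun i x hx hi => (hs.smooth i x hx hi).add (ht.smooth i x hx hi), fun i j x hx hi hj => by
    rw [hs.change i j x hx hi hj, ht.change i j x hx hi hj, mul_add]⟩

theorem IsSmSec.sum {V : Set X.pt} {L : Bd X.pt} {κ : Type} (T : Finset κ)
    {s : κ → L.ι → X.pt → ℂ} (hs : ∀ k ∈ T, IsSmSec X V L (s k)) :
    IsSmSec X V L (fun i x => ∑ k ∈ T, s k i x) :=
  ⟨fun i x hx hi => Sm.sum T fun k hk => (hs k hk).smooth i x hx hi, fun i j x hx hi hj => by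
    rw [Finset.mul_sum]
    exact Finset.sum_congr rfl fun k hk => (hs k hk).change i j x hx hi hj⟩

/-- multiplication by a smooth function -/
theorem IsSmSec.smul {V : Set X.pt} {L : Bd X.pt} {s : L.ι → X.pt → ℂ} (hs : IsSmSec X V L s)
    {χ : X.pt → ℂ} (hχ : ∀ x ∈ V, Sm X χ x) : IsSmSec X V L (fun i x => χ x * s i x) :=
  ⟨fun i x hx hi => (hχ x hx).mul (hs.smooth i x hx hi), fun i j x hx hi hj => by
    rw [hs.change i j x hx hi hj]
    ring⟩

theorem IsSmSec.const_smul {V : Set X.pt} {L : Bd X.pt} {s : L.ι → X.pt → ℂ}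
    (hs : IsSmSec X V L s) (c : ℂ) : IsSmSec X V L (fun i x => c * s i x) :=
  hs.smul fun x _ => sm_const c x

/-- multiplication by a smooth function with support in `V`: the result is a section over the
whole space -/
theorem IsSmSec.smul_of_tsupport {V W : Set X.pt} {L : Bd X.pt} {s : L.ι → X.pt → ℂ}
    (hs : IsSmSec X V L s) {χ : X.pt → ℂ} (hχ : ∀ x ∈ W, Sm X χ x)
    (hsupp : tsupport χ ⊆ V) : IsSmSec X W L (fun i x => χ x * s i x) := by
  refine ⟨fun i x hx hi => ?_, fun i j x hx hi hj => ?_⟩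
  · by_cases hxs : x ∈ tsupport χ
    · exact (hχ x hx).mul (hs.smooth i x (hsupp hxs) hi)
    · refine (sm_const 0 x).congr ?_
      filter_upwards [(isClosed_tsupport χ).isOpen_compl.mem_nhds hxs] with y hy
      rw [image_eq_zero_of_notMem_tsupport hy, zero_mul]
  · by_cases hxs : x ∈ tsupport χ
    · rw [hs.change i j x (hsupp hxs) hi hj]
      ring
    · rw [image_eq_zero_of_notMem_tsupport hxs, zero_mul, zero_mul, mul_zero]

/-- The frame `e_i` of `L` over `U i`. -/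
def frame (L : Bd X.pt) (i : L.ι) : L.ι → X.pt → ℂ := fun j x => L.g j i x

theorem isSecx_frame {L : Bd X.pt} (hL : IsLBx X L) (i : L.ι) : IsSecx X (L.U i) L (frame L i) :=
  ⟨fun j x hx hj => hL.holo j i x hj hx, fun j k x hx hj hk => (hL.cocycle j k i x hj hk hx).symm⟩

theorem IsLBx.g_self {L : Bd X.pt} (hL : IsLBx X L) {i : L.ι} {x : X.pt} (hx : x ∈ L.U i) :
    L.g i i x = 1 := by
  have h := hL.cocycle i i i x hx hx hx
  exact mul_left_cancel₀ (hL.ne_zero i i x hx hx) (by rw [h, mul_one])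

theorem IsLBx.g_mul_g {L : Bd X.pt} (hL : IsLBx X L) {i j : L.ι} {x : X.pt} (hx : x ∈ L.U i)
    (hj : x ∈ L.U j) : L.g i j x * L.g j i x = 1 := by
  rw [hL.cocycle i j i x hx hj hx, hL.g_self hx]

/-- Finitely many smooth sections without common zeros. -/
theorem exists_frames {P : Bd X.pt} (hP : IsLBx X P) : ∃ (M : ℕ) (u : Fin M → P.ι → X.pt → ℂ),
    (∀ m, IsSmSec X univ P (u m)) ∧ ∀ x i, x ∈ P.U i → ∃ m, u m i x ≠ 0 := by
  classical
  choose i hi using hP.cover
  choose χ h1 h2 h3 h4 using fun x => exists_cutoff_point x (hP.isOpen (i x)) (hi x)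
  obtain ⟨t, -, ht⟩ := isCompact_univ.elim_nhds_subcover (fun x => {y | χ x y = 1})
    fun x _ => h3 x
  let e := t.equivFin
  refine ⟨t.card, fun m j y => (χ (e.symm m) y : ℂ) * frame P (i (e.symm m)) j y, fun m => ?_,
    fun x j hj => ?_⟩
  · refine (isSecx_frame hP _).isSmSec.smul_of_tsupport (fun x _ => h1 _ x) ?_
    have h5 : tsupport (fun y => (χ (e.symm m) y : ℂ)) ⊆ tsupport (χ (e.symm m)) := by
      refine closure_mono fun y hy => ?_
      simpa using hy
    exact h5.trans (h4 _)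
  · obtain ⟨x₁, hx₁, hx₁'⟩ : ∃ x₁ ∈ t, χ x₁ x = 1 := by
      have := ht (mem_univ x)
      simpa using this
    refine ⟨e ⟨x₁, hx₁⟩, ?_⟩
    simp only [Equiv.symm_apply_apply, hx₁', Complex.ofReal_one, one_mul, frame]
    refine hP.ne_zero _ _ x hj ?_
    refine h4 x₁ (subset_tsupport _ ?_)
    rw [Function.mem_support, hx₁']
    exact one_ne_zero

end Vale.Agent.P277
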